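import Vale.Agent.P032.H617.WZ.R0
import Vale.Agent.P032.H617.WZ.R1
import Vale.Agent.P032.H617.WZ.R2
import Vale.Agent.P032.H617.WZ.R3
import Vale.Agent.P032.H617.WZ.R4
import Vale.Agent.P032.H617.WZ.R5
import Vale.Agent.P032.H617.WZ.R6
import Vale.Agent.P032.H617.WZ.R7
import Vale.Agent.P032.H617.WZ.R8
import Vale.Agent.P032.H617.WZ.R9
import Vale.Agent.P032.H617.WZ.R10
import Vale.Agent.P032.H617.WZ.R11
import Vale.Agent.P032.H617.WZ.R12
import Vale.Agent.P032.H617.WZ.R13
import Vale.Agent.P032.H617.WZ.R14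
import Vale.Agent.P032.H617.WZ.R15
import Vale.Agent.P032.H617.WZ.C0
import Vale.Agent.P032.H617.WZ.C1
import Vale.Agent.P032.H617.WZ.C2
import Vale.Agent.P032.H617.WZ.C3
import Vale.Agent.P032.H617.WZ.C4
import Vale.Agent.P032.H617.WZ.C5
import Vale.Agent.P032.H617.WZ.C6
import Vale.Agent.P032.H617.WZ.C7
import Vale.Agent.P032.H617.WZ.C8
import Vale.Agent.P032.H617.WZ.C9
import Vale.Agent.P032.H617.WZ.C10
import Vale.Agent.P032.H617.WZ.C11
import Vale.Agent.P032.H617.WZ.C12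
import Vale.Agent.P032.H617.WZ.C13
import Vale.Agent.P032.H617.WZ.C14
import Vale.Agent.P032.H617.WZ.C15
import Vale.Agent.P032.H617.WZ.T0
import Vale.Agent.P032.H617.WZ.T1
import Vale.Agent.P032.H617.WZ.T2
import Vale.Agent.P032.H617.WZ.T3
import Vale.Agent.P032.H617.WZ.T4
import Vale.Agent.P032.H617.WZ.T5
import Vale.Agent.P032.H617.WZ.T6

namespace Vale.Agent.P032.H617.WZ
open Vale.Agent.P032.H859.Rup
open Vale.Agent.P032.H184 hiding tst
open Vale.Agent.P032.H617w (tst LOWw learned_LOWw)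

theorem r3_0 : run E L 11759 e3_0 0 8 = true := run_n r4_0 r4_8

theorem r3_1 : run E L 11759 e3_1 1 8 = true := run_n r4_1 r4_9

theorem r3_2 : run E L 11759 e3_2 2 8 = true := run_n r4_2 r4_10

theorem r3_3 : run E L 11759 e3_3 3 8 = true := run_n r4_3 r4_11

theorem r3_4 : run E L 11759 e3_4 4 8 = true := run_n r4_4 r4_12

theorem r3_5 : run E L 11759 e3_5 5 8 = true := run_n r4_5 r4_13

theorem r3_6 : run E L 11759 e3_6 6 8 = true := run_n r4_6 r4_14

theorem r3_7 : run E L 11759 e3_7 7 8 = true := run_n r4_7 r4_15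

theorem r2_0 : run E L 11759 e2_0 0 4 = true := run_n r3_0 r3_4

theorem r2_1 : run E L 11759 e2_1 1 4 = true := run_n r3_1 r3_5

theorem r2_2 : run E L 11759 e2_2 2 4 = true := run_n r3_2 r3_6

theorem r2_3 : run E L 11759 e2_3 3 4 = true := run_n r3_3 r3_7

theorem r1_0 : run E L 11759 e1_0 0 2 = true := run_n r2_0 r2_2

theorem r1_1 : run E L 11759 e1_1 1 2 = true := run_n r2_1 r2_3

theorem r0_0 : run E L 11759 e0_0 0 1 = true := run_n r1_0 r1_1

theorem a3_0 : allb tst cb3_0 = true := allb_n a4_0 a4_8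

theorem a3_1 : allb tst cb3_1 = true := allb_n a4_1 a4_9

theorem a3_2 : allb tst cb3_2 = true := allb_n a4_2 a4_10

theorem a3_3 : allb tst cb3_3 = true := allb_n a4_3 a4_11

theorem a3_4 : allb tst cb3_4 = true := allb_n a4_4 a4_12

theorem a3_5 : allb tst cb3_5 = true := allb_n a4_5 a4_13

theorem a3_6 : allb tst cb3_6 = true := allb_n a4_6 a4_14

theorem a3_7 : allb tst cb3_7 = true := allb_n a4_7 a4_15

theorem a2_0 : allb tst cb2_0 = true := allb_n a3_0 a3_4

theorem a2_1 : allb tst cb2_1 = true := allb_n a3_1 a3_5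

theorem a2_2 : allb tst cb2_2 = true := allb_n a3_2 a3_6

theorem a2_3 : allb tst cb2_3 = true := allb_n a3_3 a3_7

theorem a1_0 : allb tst cb1_0 = true := allb_n a2_0 a2_2

theorem a1_1 : allb tst cb1_1 = true := allb_n a2_1 a2_3

theorem a0_0 : allb tst cb0_0 = true := allb_n a1_0 a1_1

/-- all learned clauses are true in every model of the rules -/
theorem learned {A : At} (h : LOWw A) (j : Nat) : Sat (nu A) (getC db j) :=
  learned_LOWw h hE (B := cnfT) (D := db) (n := 11759) a0_0 r0_0 j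

theorem ok_all : ∀ t ∈ tabs, chkk db t = true := by
  simp only [tabs, List.forall_mem_cons, List.not_mem_nil, false_imp_iff, implies_true, and_true]
  exact ⟨ok0, ok1, ok2, ok3, ok4, ok5, ok6⟩

/-- **the pairs of the table are impossible** -/
theorem kill {A : At} (h : LOWw A) {p q g : Nat} (hx : ∃ t ∈ tabs, ∃ l ∈ t, (p, q, g) ∈ l)
    (hp : ∀ j, A.IN false 0 0 j (dcol p j).1 ∧ A.OUT false 0 0 j (dcol p j).2)
    (hq : ∀ j, A.IN true 0 0 j (dcol q j).1 ∧ A.OUT true 0 0 j (dcol q j).2) : False := by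
  obtain ⟨t, ht, l, hl, hx⟩ := hx
  exact not_pair (learned h) (chkk_mem (ok_all t ht) hl) hx hp hq

end Vale.Agent.P032.H617.WZ
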